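import Vale.Agent.P029.Cyc3

/-!
Solutions of the pentagon equation are special.

Plan: `s = ⁅y, u(x,y)⁆ + ⁅z, u(x,z)⁆ ∈ HT K one (m+1)`, `z = -x-y`. It is symmetric under all
permutations of `x, y, z`: (`y ↔ z` clear); `s(a,b) - s(b,a) = -⁅c, u(a,b)+u(b,c)+u(c,a)⁆ = 0`.
In a five strand family (labels 1..5, `ψijk = ev ![x i j, x j k] u`, `ψkji = -ψijk`, `ψijk`
commutes with `x l m`): by `tri`/`shift2`, for distinct `i j k`,
`s(x i j, x j k) = ⁅x j k, ψ(x i j, x j k)⁆ + ⁅x i k, ψ(x i j, x i k)⁆`, and also shifting each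
argument by `x l m` does not change `s`. Put
S234 = [x24,ψ324]+[x34,ψ234], S134 = [x14,ψ314]+[x34,ψ134], S145 = [x14,ψ541]+[x15,ψ451],
S245 = [x24,ψ542]+[x25,ψ452]. Then S234 - S134 + S145 - S245 = 0, because
ψ541-ψ314 = ψ231+ψ452-ψ325 (cp 2,3,1,4,5), ψ324-ψ542 = ψ231-ψ451-ψ513 (cp 2,3,1,5,4),
ψ234-ψ134 = ψ231+ψ452-ψ451-ψ152 (cp 1,2,3,4,5 and cp 2,1,3,4,5 and two 3-cycles 123, 125),
[x14,ψ325] = [x24,ψ513] = [x34,ψ152] = 0, x14+x24+x34 = -x45, x14+x34-x25 = -x13,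
x15-x24-x34 = x23. With `Yi = x i 4`: S234 = s(Y2,Y3) = s(Y3,Y2), S134 = s(Y1,Y3),
S145 = s(Y1,Y5) = s(Y1,Y2+Y3), S245 = s(Y2,Y5) = s(Y1+Y3,Y2). This is the cocycle equation for
`(Y1,Y3,Y2)`; swap the labels 2,3 (`P5.perm`) and use `cocycle_p5`.
-/

namespace Vale.Agent.P029

attribute [local instance 100] LieRing.ofAssociativeRing

variable {K : Type} [Field K] [CharZero K] {B : Type} [Ring B] [Algebra K B] {u : T K (Fin 2)}

/-- the speciality expression -/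
noncomputable def specS (u : T K (Fin 2)) : T K (Fin 2) :=
  ⁅(lt 1 : T K (Fin 2)), u⁆ +
    ⁅(-lt 0 - lt 1 : T K (Fin 2)), ev ![(lt 0 : T K (Fin 2)), -lt 0 - lt 1] u⁆

omit [CharZero K] in
lemma spec_ev (u : T K (Fin 2)) (a b : B) :
    ev ![a, b] (specS u) = ⁅b, ev ![a, b] u⁆ + ⁅-a - b, ev ![a, -a - b] u⁆ := by
  simp only [specS, Ring.lie_def, map_add, map_sub, map_mul, map_neg, map_ev2, ev_lt,
    Matrix.cons_val_zero, Matrix.cons_val_one]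

omit [CharZero K] in
lemma spec_mem {m : ℕ} (h : u ∈ HT K one m) : specS u ∈ HT K one (1 + m) := by
  have h0 : (lt 0 : T K (Fin 2)) ∈ HT K one 1 := lt_mem_HT one 0
  have h1 : (lt 1 : T K (Fin 2)) ∈ HT K one 1 := lt_mem_HT one 1
  have h2 : (-lt 0 - lt 1 : T K (Fin 2)) ∈ HT K one 1 := sub_mem (neg_mem h0) h1
  refine add_mem (lie_mem_HT h1 h) (lie_mem_HT h2 (ev_mem_HT (wt := one) (fun i => ?_) h))
  fin_cases i
  · exact h0
  · exact h2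

omit [CharZero K] in
lemma spec_swap23 (u : T K (Fin 2)) (a b : B) :
    ev ![a, -a - b] (specS u) = ev ![a, b] (specS u) := by
  have e : -a - (-a - b) = b := by abel
  rw [spec_ev, spec_ev, e, add_comm]

lemma spec_swap12 (hu : u ∈ Pent K) {m : ℕ} (hm : 3 ≤ m) (h : u ∈ Hg K one m) (a b : B) :
    ev ![b, a] (specS u) = ev ![a, b] (specS u) := by
  have e : -b - a = -a - b := by abel
  have h1 := eq_neg_of_add_eq_zero_right (Pent.two_cycle hu h a b)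
  have h2 := eq_neg_of_add_eq_zero_right (Pent.two_cycle hu h (-a - b) a)
  have h3 := eq_neg_of_add_eq_zero_right (Pent.three_cycle hu hm h a b)
  rw [spec_ev, spec_ev, e, h1, h2, h3]
  generalize ev ![a, b] u = p, ev ![b, -a - b] u = q
  simp only [lie_add, lie_neg, neg_lie, sub_lie]
  abel

omit [CharZero K] in
lemma spec_nodup {i j k l m : Fin 5} (hn : [i, j, k, l, m].Nodup) :
    [l, m, i, j].Nodup ∧ [l, m, j, k].Nodup ∧ [l, m, i, k].Nodup := by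
  simp only [List.nodup_cons, List.mem_cons, List.not_mem_nil, or_false, not_or, List.nodup_nil,
    not_false_eq_true, and_true] at hn ⊢
  obtain ⟨⟨h1, h2, h3, h4⟩, ⟨h5, h6, h7⟩, ⟨h8, h9⟩, h10⟩ := hn
  exact ⟨⟨⟨h10, Ne.symm h3, Ne.symm h6⟩, ⟨Ne.symm h4, Ne.symm h7⟩, h1⟩,
    ⟨⟨h10, Ne.symm h6, Ne.symm h8⟩, ⟨Ne.symm h7, Ne.symm h9⟩, h5⟩,
    ⟨⟨h10, Ne.symm h3, Ne.symm h8⟩, ⟨Ne.symm h4, Ne.symm h9⟩, h2⟩⟩

omit [CharZero K] in
/-- the third argument inside a five strand family -/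
lemma spec_third {x : Fin 5 → Fin 5 → B} (hx : P5 x) {i j k l m : Fin 5}
    (hn : [i, j, k, l, m].Nodup) {n : ℕ} (h2 : 2 ≤ n) {r : T K (Fin 2)} (hr : r ∈ HT K one n) :
    ev ![x i j, -x i j - x j k] r = ev ![x i j, x i k] r := by
  obtain ⟨n1, -, n3⟩ := spec_nodup hn
  have e : -x i j - x j k - x i k = -x l m := by rw [← hx.tri i j k l m hn]; abel
  refine shift2 ?_ ?_ ?_ ?_ ?_ h2 hr
  · rw [sub_self]; exact Commute.zero_left _
  · rw [sub_self]; exact Commute.zero_left _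
  · rw [e]; exact (hx.comm l m i j n1).neg_left
  · rw [e]; exact (hx.comm l m i k n3).neg_left
  · rw [sub_self]; exact Commute.zero_left _

omit [CharZero K] in
lemma spec_p5 {x : Fin 5 → Fin 5 → B} (hx : P5 x) {i j k l m : Fin 5}
    (hn : [i, j, k, l, m].Nodup) {n : ℕ} (h2 : 2 ≤ n) (h : u ∈ HT K one n) :
    ev ![x i j, x j k] (specS u) =
      ⁅x j k, ev ![x i j, x j k] u⁆ + ⁅x i k, ev ![x i j, x i k] u⁆ := by
  obtain ⟨n1, -, n3⟩ := spec_nodup hn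
  have e : -x i j - x j k = x i k - x l m := by rw [← hx.tri i j k l m hn]; abel
  have c : ⁅x l m, ev ![x i j, x i k] u⁆ = 0 :=
    (commute_ev2 (hx.comm l m i j n1) (hx.comm l m i k n3) u).lie_eq
  rw [spec_ev, spec_third hx hn h2 h, e, sub_lie, c, sub_zero]

lemma spec_alg {x14 x24 x34 x15 x25 p542 p134 p314 p451 p452 p231 p513 p152 p325 : B}
    (c1 : ⁅x14, p325⁆ = 0) (c2 : ⁅x24, p513⁆ = 0) (c3 : ⁅x34, p152⁆ = 0)
    (c4 : ⁅x14 + x24 + x34, p231⁆ = 0) (c5 : ⁅x15 - x24 - x34, p451⁆ = 0)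
    (c6 : ⁅x14 + x34 - x25, p452⁆ = 0) :
    (⁅x34, p134⁆ + ⁅x14, p314⁆) + (⁅x25, p452⁆ + ⁅x24, p542⁆) =
      (⁅x34, p134 + (p231 + p452 - p451 - p152)⁆ + ⁅x24, p542 + (p231 - p451 - p513)⁆) +
        (⁅x15, p451⁆ + ⁅x14, p314 + (p231 + p452 - p325)⁆) := by
  have : (⁅x34, p134 + (p231 + p452 - p451 - p152)⁆ + ⁅x24, p542 + (p231 - p451 - p513)⁆) +
        (⁅x15, p451⁆ + ⁅x14, p314 + (p231 + p452 - p325)⁆) =
      (⁅x34, p134⁆ + ⁅x14, p314⁆) + (⁅x25, p452⁆ + ⁅x24, p542⁆) + (⁅x14 + x24 + x34, p231⁆ +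
        ⁅x15 - x24 - x34, p451⁆ + ⁅x14 + x34 - x25, p452⁆ - ⁅x14, p325⁆ - ⁅x24, p513⁆ -
        ⁅x34, p152⁆) := by
    simp only [lie_add, lie_sub, add_lie, sub_lie]
    abel
  rw [this, c1, c2, c3, c4, c5, c6]
  simp

/-- the four term identity, labels `1..5` of the plan are `0..4` -/
lemma spec_four (hu : u ∈ Pent K) {m : ℕ} (hm : 3 ≤ m) (h : u ∈ Hg K one m)
    {x : Fin 5 → Fin 5 → B} (hx : P5 x) :
    ev ![x 0 2, x 2 3] (specS u) + ev ![x 3 4, x 4 1] (specS u) =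
      ev ![x 1 2, x 2 3] (specS u) + ev ![x 3 4, x 4 0] (specS u) := by
  have hl := Pent.lie hu h
  have h2 : 2 ≤ m := by omega
  obtain ⟨ψ, hψ⟩ : ∃ ψ : Fin 5 → Fin 5 → Fin 5 → B, ∀ i j k, ψ i j k = ev ![x i j, x j k] u :=
    ⟨_, fun _ _ _ => rfl⟩
  have rv : ∀ i j k, ψ k j i = -ψ i j k := fun i j k => by
    rw [hψ, hψ, hx.symm k j, hx.symm j i]
    exact eq_neg_of_add_eq_zero_right (Pent.two_cycle hu h _ _)
  have cp : ∀ p q r s t, [p, q, r, s, t].Nodup →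
      ψ p q r + ψ q r s + ψ r s t + ψ s t p + ψ t p q = 0 := fun p q r s t hn => by
    simp only [hψ]
    exact Pent.cp hu h hx hn
  have th : ∀ i j k, [i, j, k].Nodup → ψ i j k + ψ j k i + ψ k i j = 0 := fun i j k hn => by
    simp only [hψ]
    exact Pent.three_p5 hu hm h hx hn
  have cm : ∀ i j k l n, [i, j, k, l, n].Nodup → ⁅x l n, ψ i j k⁆ = 0 := fun i j k l n hn => by
    obtain ⟨n1, n2, -⟩ := spec_nodup hn
    rw [hψ]
    exact (commute_ev2 (hx.comm l n i j n1) (hx.comm l n j k n2) u).lie_eq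
  have sp : ∀ i j k l n, [i, j, k, l, n].Nodup →
      ev ![x i j, x j k] (specS u) = ⁅x j k, ψ i j k⁆ + ⁅x i k, ψ j i k⁆ := fun i j k l n hn => by
    rw [spec_p5 hx hn h2 hl, hψ, hψ, hx.symm j i]
  have E1 : ψ 4 3 0 = ψ 2 0 3 + (ψ 1 2 0 + ψ 3 4 1 - ψ 2 1 4) := by
    have a1 := cp 1 2 0 3 4 (by decide)
    rw [rv 4 3 0, rv 2 1 4] at a1
    rw [← sub_eq_zero, ← neg_eq_zero, ← a1]
    abel
  have E2 : ψ 2 1 3 = ψ 4 3 1 + (ψ 1 2 0 - ψ 3 4 0 - ψ 4 0 2) := by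
    have a1 := cp 1 2 0 4 3 (by decide)
    rw [rv 4 0 2, rv 3 4 0, rv 2 1 3] at a1
    rw [← sub_eq_zero, ← neg_eq_zero, ← a1]
    abel
  have E3 : ψ 1 2 3 = ψ 0 2 3 + (ψ 1 2 0 + ψ 3 4 1 - ψ 3 4 0 - ψ 0 4 1) := by
    have a1 := cp 0 1 2 3 4 (by decide)
    have a2 := cp 1 0 2 3 4 (by decide)
    have a3 := th 0 1 2 (by decide)
    have a4 := th 0 1 4 (by decide)
    rw [rv 1 0 2] at a3
    rw [rv 4 1 0, rv 0 4 1] at a4
    have a5 : ψ 0 1 2 + ψ 1 2 3 + ψ 2 3 4 + ψ 3 4 0 + ψ 4 0 1 -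
        (ψ 1 0 2 + ψ 0 2 3 + ψ 2 3 4 + ψ 3 4 1 + ψ 4 1 0) - (ψ 0 1 2 + ψ 1 2 0 + -ψ 1 0 2) -
        (-ψ 4 1 0 + -ψ 0 4 1 + ψ 4 0 1) = 0 := by
      rw [a1, a2, a3, a4]
      simp
    rw [← sub_eq_zero, ← a5]
    abel
  have t1 := hx.tri 0 3 4 1 2 (by decide)
  have t2 := hx.tri 1 2 3 0 4 (by decide)
  have t3 := hx.tri 0 2 3 1 4 (by decide)
  have e4 : x 0 3 + x 1 3 + x 2 3 = -x 3 4 := by
    rw [← sub_eq_zero]
    have : x 0 3 + x 0 4 + x 3 4 - x 1 2 + (x 1 2 + x 1 3 + x 2 3 - x 0 4) = 0 := by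
      rw [t1, t2]
      simp
    rw [← this]
    abel
  have e5 : x 0 4 - x 1 3 - x 2 3 = x 1 2 := by rw [← t2]; abel
  have e6 : x 0 3 + x 2 3 - x 1 4 = -x 0 2 := by rw [← t3]; abel
  rw [sp 0 2 3 1 4 (by decide), sp 3 4 1 0 2 (by decide), sp 1 2 3 0 4 (by decide),
    sp 3 4 0 1 2 (by decide), E1, E2, E3, hx.symm 4 1, hx.symm 3 1, hx.symm 4 0, hx.symm 3 0]
  refine spec_alg (cm 2 1 4 0 3 (by decide)) (cm 4 0 2 1 3 (by decide))
    (cm 0 4 1 2 3 (by decide)) ?_ ?_ ?_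
  · rw [e4, neg_lie, cm 1 2 0 3 4 (by decide), neg_zero]
  · rw [e5, cm 3 4 0 1 2 (by decide)]
  · rw [e6, neg_lie, cm 3 4 1 0 2 (by decide), neg_zero]

/-- the cocycle equation for `(Y1, Y3, Y2)` -/
lemma spec_cocycle (hu : u ∈ Pent K) {m : ℕ} (hm : 3 ≤ m) (h : u ∈ Hg K one m)
    {x : Fin 5 → Fin 5 → B} (hx : P5 x) :
    ev ![x 0 3, x 2 3] (specS u) + ev ![x 0 3 + x 2 3, x 1 3] (specS u) =
      ev ![x 2 3, x 1 3] (specS u) + ev ![x 0 3, x 2 3 + x 1 3] (specS u) := by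
  have hs := spec_mem (Pent.lie hu h)
  have h2 : 2 ≤ 1 + m := by omega
  have sw := spec_swap12 (B := B) hu hm h
  have mv : ∀ i j k l n, [i, j, k, l, n].Nodup →
      ev ![x i j, x j k] (specS u) = ev ![x i j, x i k] (specS u) := fun i j k l n hn => by
    rw [← spec_third hx hn h2 hs, spec_swap23]
  have t1 := hx.tri 0 3 4 1 2 (by decide)
  have t2 := hx.tri 1 2 3 0 4 (by decide)
  have e4 : x 3 4 = -(x 0 3 + x 1 3 + x 2 3) := by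
    rw [← sub_eq_zero]
    have : x 0 3 + x 0 4 + x 3 4 - x 1 2 + (x 1 2 + x 1 3 + x 2 3 - x 0 4) = 0 := by
      rw [t1, t2]
      simp
    rw [← this]
    abel
  have k := spec_four hu hm h hx
  have k1 : ev ![x 0 2, x 2 3] (specS u) = ev ![x 0 3, x 2 3] (specS u) := by
    rw [sw (x 2 3) (x 0 2), hx.symm 2 3, hx.symm 0 2, mv 3 2 0 1 4 (by decide), sw, hx.symm 3 0]
  have k2 : ev ![x 1 2, x 2 3] (specS u) = ev ![x 2 3, x 1 3] (specS u) := by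
    rw [sw (x 2 3) (x 1 2), hx.symm 2 3, hx.symm 1 2, mv 3 2 1 0 4 (by decide), hx.symm 3 1]
  have k3 : ev ![x 3 4, x 4 0] (specS u) = ev ![x 0 3, x 2 3 + x 1 3] (specS u) := by
    have e : x 3 4 = -x 0 3 - (x 2 3 + x 1 3) := by rw [e4]; abel
    rw [mv 3 4 0 1 2 (by decide), sw, hx.symm 3 0, e, spec_swap23]
  have k4 : ev ![x 3 4, x 4 1] (specS u) = ev ![x 0 3 + x 2 3, x 1 3] (specS u) := by
    have e : x 3 4 = -x 1 3 - (x 0 3 + x 2 3) := by rw [e4]; abel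
    rw [mv 3 4 1 0 2 (by decide), sw, hx.symm 3 1, e, spec_swap23, sw]
  rw [← k1, ← k2, ← k3, ← k4]
  exact k

lemma spec_zero (hu : u ∈ Pent K) {m : ℕ} (hm : 3 ≤ m) (h : u ∈ Hg K one m) : specS u = 0 := by
  refine cocycle_p5 (m := 1 + m) (by omega) (spec_mem (Pent.lie hu h)) fun B _ _ x hx => ?_
  obtain ⟨y, hy⟩ : ∃ y : Fin 5 → Fin 5 → B,
      y = fun i j => x (![0, 2, 1, 3, 4] i) (![0, 2, 1, 3, 4] j) := ⟨_, rfl⟩
  have hp : P5 y := by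
    rw [hy]
    exact hx.perm ![0, 2, 1, 3, 4] (by decide)
  have e0 : y 0 3 = x 0 3 := by rw [hy]; rfl
  have e1 : y 2 3 = x 1 3 := by rw [hy]; rfl
  have e2 : y 1 3 = x 2 3 := by rw [hy]; rfl
  have k := spec_cocycle hu hm h hp
  rwa [e0, e1, e2] at k

theorem Pent.special (hu : u ∈ Pent K) {m : ℕ} (hm : 3 ≤ m) (h : u ∈ Hg K one m) (a b : B) :
    ⁅b, ev ![a, b] u⁆ + ⁅-a - b, ev ![a, -a - b] u⁆ = 0 := by
  rw [← spec_ev, spec_zero hu hm h, map_zero]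

/-- speciality inside a five strand family -/
theorem Pent.special_p5 (hu : u ∈ Pent K) {m : ℕ} (hm : 3 ≤ m) (h : u ∈ Hg K one m)
    {x : Fin 5 → Fin 5 → B} (hx : P5 x) {i j k : Fin 5} (hn : [i, j, k].Nodup) :
    ⁅x j k, ev ![x i j, x j k] u⁆ + ⁅x i k, ev ![x i j, x i k] u⁆ = 0 := by
  have ex : ∀ i j k : Fin 5, [i, j, k].Nodup → ∃ l n, [i, j, k, l, n].Nodup := by decide
  obtain ⟨l, n, hn'⟩ := ex i j k hn
  rw [← spec_p5 hx hn' (by omega) (Pent.lie hu h), spec_zero hu hm h, map_zero]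

end Vale.Agent.P029
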